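import Mathlib
import Vale.Agent.Lib.P162.Defs

/-!
Pool job P162-E2 (second copy, helper79): the `k`-card kernel of one Thorp shuffle is a
stochastic matrix, so are its powers, and tracked cards stay in distinct positions.
-/

namespace Vale.Agent.Lib.P162.H79

open Finset BigOperators Vale.Agent.Lib.P162

theorem stepProb_nonneg (h k : ℕ) [NeZero h] (z y : Fin k → ZMod (2 * h)) :
    0 ≤ stepProb h k z y := by
  unfold stepProb
  positivity

theorem stepProb_sum (h k : ℕ) [NeZero h] (z : Fin k → ZMod (2 * h)) :
    ∑ y, stepProb h k z y = 1 := by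
  unfold stepProb
  rw [← Finset.sum_div]
  have hcard : (∑ y : Fin k → ZMod (2 * h),
      ((univ.filter fun c : ZMod h → Bool => ∀ j, move h c (z j) = y j).card : ℝ))
      = ((univ : Finset (ZMod h → Bool)).card : ℝ) := by
    rw [← Nat.cast_sum]
    congr 1
    have := Finset.card_eq_sum_card_fiberwise (s := (univ : Finset (ZMod h → Bool)))
      (t := (univ : Finset (Fin k → ZMod (2 * h))))
      (f := fun c : ZMod h → Bool => fun j => move h c (z j)) (fun c _ => Finset.mem_univ _)
    rw [this]
    refine Finset.sum_congr rfl ?_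
    intro y _
    congr 1
    ext c
    simp [funext_iff]
  rw [hcard]
  have h2 : ((univ : Finset (ZMod h → Bool)).card : ℝ) = 2 ^ h := by
    rw [Finset.card_univ, Fintype.card_fun, ZMod.card, Fintype.card_bool]
    push_cast; rfl
  rw [h2]
  exact div_self (by positivity)

theorem Kmat_pow_nonneg (h k : ℕ) [NeZero h] (s : ℕ) (x y : Fin k → ZMod (2 * h)) :
    0 ≤ (Kmat h k ^ s) x y := by
  induction s generalizing y with
  | zero =>
    rw [pow_zero, Matrix.one_apply]
    split_ifs <;> norm_num
  | succ s ih =>
    rw [pow_succ, Matrix.mul_apply]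
    exact Finset.sum_nonneg fun u _ => mul_nonneg (ih u) (stepProb_nonneg h k u y)

theorem Kmat_pow_sum (h k : ℕ) [NeZero h] (s : ℕ) (x : Fin k → ZMod (2 * h)) :
    ∑ y, (Kmat h k ^ s) x y = 1 := by
  induction s with
  | zero =>
    simp [Matrix.one_apply]
  | succ s ih =>
    simp only [pow_succ, Matrix.mul_apply]
    rw [Finset.sum_comm]
    have : ∀ u : Fin k → ZMod (2 * h),
        ∑ y, (Kmat h k ^ s) x u * Kmat h k u y = (Kmat h k ^ s) x u := by
      intro u
      rw [← Finset.mul_sum]
      have := stepProb_sum h k u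
      show (Kmat h k ^ s) x u * ∑ y, stepProb h k u y = (Kmat h k ^ s) x u
      rw [this, mul_one]
    rw [Finset.sum_congr rfl fun u _ => this u]
    exact ih

theorem Kmat_pow_support (h k : ℕ) [NeZero h]
    (hinj : ∀ c : ZMod h → Bool, Function.Injective (move h c))
    (x : Fin k → ZMod (2 * h)) (hx : Function.Injective x) (s : ℕ) (y : Fin k → ZMod (2 * h))
    (hy : (Kmat h k ^ s) x y ≠ 0) : Function.Injective y := by
  induction s generalizing y with
  | zero =>
    rw [pow_zero, Matrix.one_apply] at hy
    by_cases hxy : x = y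
    · rw [← hxy]; exact hx
    · rw [if_neg hxy] at hy; exact absurd rfl hy
  | succ s ih =>
    rw [pow_succ, Matrix.mul_apply] at hy
    obtain ⟨u, _, hu⟩ := Finset.exists_ne_zero_of_sum_ne_zero hy
    have hu1 : (Kmat h k ^ s) x u ≠ 0 := left_ne_zero_of_mul hu
    have hu2 : stepProb h k u y ≠ 0 := right_ne_zero_of_mul hu
    have huinj := ih u hu1
    unfold stepProb at hu2
    have hcard : (univ.filter fun c : ZMod h → Bool => ∀ j, move h c (u j) = y j).card ≠ 0 := by
      intro h0
      apply hu2
      rw [h0]; simp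
    obtain ⟨c, hc⟩ := Finset.card_pos.mp (Nat.pos_of_ne_zero hcard)
    have hc' : ∀ j, move h c (u j) = y j := (Finset.mem_filter.mp hc).2
    intro i j hij
    apply huinj
    apply hinj c
    rw [hc' i, hc' j, hij]

end Vale.Agent.Lib.P162.H79
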